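import Vale.Agent.P245W48.St

/-!
# P245: the uniform measure on a thin box gives the lower bound for `K n`
-/

set_option linter.all false

namespace Vale.Agent.P245W

open MeasureTheory ProbabilityTheory Set
open scoped ENNReal ContDiff

noncomputable section

variable {n : ℕ}

/-- the uniform law on a symmetric interval -/
def unif (r : ℝ) : Measure ℝ := (ENNReal.ofReal (2 * r))⁻¹ • volume.restrict (Icc (-r) r)

theorem unif_prob {r : ℝ} (hr : 0 < r) : IsProbabilityMeasure (unif r) := by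
  constructor
  rw [unif, Measure.smul_apply, Measure.restrict_apply_univ, Real.volume_Icc, smul_eq_mul,
    show r - -r = 2 * r by ring]
  exact ENNReal.inv_mul_cancel (by simpa using hr) ENNReal.ofReal_ne_top

theorem integral_unif {r : ℝ} (hr : 0 < r) (φ : ℝ → ℝ) :
    ∫ t, φ t ∂unif r = (2 * r)⁻¹ * ∫ t in (-r)..r, φ t := by
  rw [unif, integral_smul_measure, integral_Icc_eq_integral_Ioc,
    ← intervalIntegral.integral_of_le (by linarith), ENNReal.toReal_inv,
    ENNReal.toReal_ofReal (by linarith), smul_eq_mul]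

/-- the box -/
def Bx (r : Fin n → ℝ) : Set (Eu n) := {x | ∀ i, x i ∈ Icc (-r i) (r i)}

/-- the uniform law on the box -/
def box (r : Fin n → ℝ) : Measure (Eu n) := (Measure.pi fun i => unif (r i)).map (WithLp.toLp 2)

theorem closed_Bx (r : Fin n → ℝ) : IsClosed (Bx r) := by
  rw [Bx, setOf_forall]
  exact isClosed_iInter fun i => isClosed_Icc.preimage (by fun_prop)

theorem convex_Bx (r : Fin n → ℝ) : Convex ℝ (Bx r) :=
  fun x hx y hy a b ha hb hab i => convex_Icc _ _ (hx i) (hy i) ha hb hab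

variable {r : Fin n → ℝ} (hr : ∀ i, 0 < r i)
include hr

theorem box_prob : IsProbabilityMeasure (box r) := by
  have := fun i => unif_prob (hr i)
  exact Measure.isProbabilityMeasure_map (PiLp.volume_preserving_toLp _).measurable.aemeasurable

theorem box_mp (i : Fin n) : MeasurePreserving (fun x : Eu n => x i) (box r) (unif (r i)) := by
  have := fun i => unif_prob (hr i)
  have m : Measurable fun x : Eu n => x i := by fun_prop
  refine ⟨m, ?_⟩
  rw [box, Measure.map_map m (PiLp.volume_preserving_toLp _).measurable]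
  exact (measurePreserving_eval (fun i => unif (r i)) i).map_eq

theorem box_eq : box r = (ENNReal.ofReal (∏ i, (2 * r i)⁻¹)) • volume.restrict (Bx r) := by
  have := fun i => unif_prob (hr i)
  have e : (Measure.pi fun i => unif (r i)) = (ENNReal.ofReal (∏ i, (2 * r i)⁻¹)) •
      (volume : Measure (Fin n → ℝ)).restrict (univ.pi fun i => Icc (-r i) (r i)) := by
    refine Measure.pi_eq fun s hs => ?_
    rw [Measure.smul_apply, volume_pi, Measure.restrict_pi_pi, Measure.pi_pi, smul_eq_mul,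
      ENNReal.ofReal_prod_of_nonneg fun i _ => by have := hr i; positivity,
      ← Finset.prod_mul_distrib]
    refine Finset.prod_congr rfl fun i _ => ?_
    rw [unif, Measure.smul_apply, smul_eq_mul, ENNReal.ofReal_inv_of_pos (by have := hr i; positivity)]
  have k := ((PiLp.volume_preserving_toLp (Fin n)).restrict_preimage
    (closed_Bx r).measurableSet).map_eq
  rw [box, e, Measure.map_smul, ← k]
  congr 3
  ext x
  simp [Bx, Pi.le_def, forall_and]

theorem ae_Bx : ∀ᵐ x ∂box r, x ∈ Bx r := by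
  rw [box_eq hr]
  exact Measure.ae_smul_measure (ae_restrict_mem (closed_Bx r).measurableSet) _

theorem box_density : ∃ ρ : Eu n → ℝ, (∀ x, 0 ≤ ρ x) ∧ LogConcave ρ ∧
    box r = volume.withDensity fun x => ENNReal.ofReal (ρ x) := by
  have hc : 0 < ∏ i, (2 * r i)⁻¹ := Finset.prod_pos fun i _ => by have := hr i; positivity
  have e : {x | 0 < (Bx r).indicator (fun _ => ∏ i, (2 * r i)⁻¹) x} = Bx r := by
    ext x
    by_cases h : x ∈ Bx r <;> simp only [mem_setOf_eq, indicator, h, if_true, if_false, hc,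
      lt_irrefl]
  refine ⟨(Bx r).indicator fun _ => ∏ i, (2 * r i)⁻¹, indicator_nonneg fun _ _ => hc.le, ?_, ?_⟩
  · rw [LogConcave, e]
    exact ⟨convex_Bx r, (concaveOn_const (Real.log (∏ i, (2 * r i)⁻¹)) (convex_Bx r)).congr
      fun x hx => by simp only [indicator_of_mem hx]⟩
  · rw [box_eq hr, ← withDensity_const, ← withDensity_indicator (closed_Bx r).measurableSet]
    congr 1
    ext x
    by_cases h : x ∈ Bx r <;> simp only [indicator, h, if_true, if_false, ENNReal.ofReal_zero]

variable (h2 : ∀ x ∈ Bx r, ‖x‖ ^ 2 ≤ 2)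
include h2

theorem box_adm : Admissible (box r) := by
  have := box_prob hr
  have hi : Integrable id (box r) :=
    Integrable.mono' (integrable_const (2 : ℝ)) aestronglyMeasurable_id
      ((ae_Bx hr).mono fun x hx => by have := h2 x hx; change ‖x‖ ≤ 2; nlinarith [norm_nonneg x])
  refine ⟨this, box_density hr, hi, ?_⟩
  ext i
  have e : (∫ x, x ∂box r) i = ∫ x, x i ∂box r :=
    ((EuclideanSpace.proj i : Eu n →L[ℝ] ℝ).integral_comp_comm hi).symm
  have e2 : ∫ x, x i ∂box r = ∫ t, t ∂unif (r i) := by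
    rw [← (box_mp hr i).map_eq, integral_map (box_mp hr i).measurable.aemeasurable
      (f := fun t : ℝ => t) aestronglyMeasurable_id]
  rw [e, e2, integral_unif (hr i), integral_id]
  simp

theorem box_sg : Subgaussian (box r) 2 := by
  have := box_prob hr
  refine iSup_le fun θ => ?_
  refine le_trans (lintegral_mono_ae (g := fun _ => 2) ((ae_Bx hr).mono fun x hx => ?_)) (by simp)
  have h1 : ‖θ.1‖ = 1 := mem_sphere_zero_iff_norm.1 θ.2
  have h3 : inner ℝ x θ.1 ^ 2 ≤ 2 := by
    have := abs_real_inner_le_norm x θ.1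
    rw [h1, mul_one] at this
    rw [← sq_abs]
    exact (pow_le_pow_left₀ (abs_nonneg _) this 2).trans (h2 x hx)
  refine le_trans (ENNReal.ofReal_le_ofReal (q := 2) ?_) (by simp)
  rw [← Real.le_log_iff_exp_le (by norm_num)]
  have := Real.log_two_gt_d9
  linarith

theorem box_lsi (j : Fin n) (hj : r j = 1) {C : ℝ≥0∞} (hC : LSI (box r) C) : 5⁻¹ ≤ C := by
  have := box_prob hr
  let χ : ContDiffBump (0 : Eu n) := ⟨2, 3, by norm_num, by norm_num⟩
  let L : Eu n →L[ℝ] ℝ := (2⁻¹ : ℝ) • EuclideanSpace.proj j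
  have hL : ‖L‖ ≤ 2⁻¹ := L.opNorm_le_bound (by norm_num) fun x => by
    change ‖(2⁻¹ : ℝ) * x j‖ ≤ _
    rw [norm_mul, Real.norm_of_nonneg (by norm_num : (0 : ℝ) ≤ 2⁻¹)]
    exact mul_le_mul_of_nonneg_left (PiLp.norm_apply_le x j) (by norm_num)
  let f : Eu n → ℝ := fun x => Real.exp (L x) * χ x
  have hb : ∀ x ∈ Bx r, x ∈ Metric.ball (0 : Eu n) 2 := fun x hx => by
    rw [mem_ball_zero_iff]
    have := h2 x hx
    nlinarith [norm_nonneg x]
  have ev : ∀ x ∈ Bx r, f =ᶠ[nhds x] fun y => Real.exp (L y) := fun x hx =>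
    Filter.eventually_of_mem (Metric.isOpen_ball.mem_nhds (hb x hx)) fun y hy => by
      simp only [f]
      rw [χ.one_of_mem_closedBall (Metric.ball_subset_closedBall hy), mul_one]
  have sq : ∀ x, Real.exp (L x) ^ 2 = Real.exp (x j) := fun x => by
    rw [← Real.exp_nat_mul]
    congr 1
    change ((2 : ℕ) : ℝ) * (2⁻¹ * x j) = x j
    push_cast
    ring
  have k := hC f ((Real.contDiff_exp.comp L.contDiff).mul χ.contDiff) χ.hasCompactSupport.mul_left
  have hI : ∫⁻ x, ‖gradient f x‖ₑ ^ 2 ∂box r ≤ ENNReal.ofReal 0.7 := by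
    refine le_trans (lintegral_mono_ae (g := fun _ => ENNReal.ofReal 0.7)
      ((ae_Bx hr).mono fun x hx => ?_)) (by simp)
    have d : fderiv ℝ f x = Real.exp (L x) • L := by
      rw [(ev x hx).fderiv_eq]
      exact L.hasFDerivAt.exp.fderiv
    have e : ‖gradient f x‖ = Real.exp (L x) * ‖L‖ := by
      rw [gradient, LinearIsometryEquiv.norm_map, d, norm_smul,
        Real.norm_of_nonneg (Real.exp_pos _).le]
    rw [← ofReal_norm_eq_enorm, ← ENNReal.ofReal_pow (norm_nonneg _), e, mul_pow, sq]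
    refine ENNReal.ofReal_le_ofReal ?_
    have h1 : Real.exp (x j) ≤ Real.exp 1 := Real.exp_le_exp.2 (hj ▸ (hx j).2)
    have h3 := Real.exp_one_lt_d9
    have h4 : ‖L‖ ^ 2 ≤ 2⁻¹ ^ 2 := pow_le_pow_left₀ (norm_nonneg _) hL 2
    have h5 := mul_le_mul h1 h4 (by positivity) (Real.exp_pos _).le
    linarith
  have tr : ∀ φ : ℝ → ℝ, Continuous φ → ∫ x, φ (f x ^ 2) ∂box r =
      2⁻¹ * ∫ t in (-1 : ℝ)..1, φ (Real.exp t) := fun φ hφ => by
    have e1 : ∫ x, φ (f x ^ 2) ∂box r = ∫ x, φ (Real.exp (x j)) ∂box r :=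
      integral_congr_ae ((ae_Bx hr).mono fun x hx => by
        simp only []
        rw [(ev x hx).eq_of_nhds, sq])
    have e2 := integral_map (μ := box r) (box_mp hr j).measurable.aemeasurable
      (f := fun t => φ (Real.exp t)) (hφ.comp Real.continuous_exp).aestronglyMeasurable
    rw [e1, ← e2, (box_mp hr j).map_eq, hj, integral_unif one_pos, mul_one]
  have i1 := tr (fun t => t) continuous_id
  have i2 := tr (fun t => t * Real.log t) Real.continuous_mul_log
  simp only [Real.log_exp, integral_exp] at i1 i2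
  have i3 : ∫ t in (-1 : ℝ)..1, Real.exp t * t = 2 * Real.exp (-1) := by
    rw [intervalIntegral.integral_eq_sub_of_hasDerivAt (f := fun t => (t - 1) * Real.exp t)
      (fun t _ => (((hasDerivAt_id' t).sub_const 1).mul (Real.hasDerivAt_exp t)).congr_deriv
        (by ring)) (by apply Continuous.intervalIntegrable; fun_prop)]
    ring
  have hE : 0.14 ≤ Ent (box r) fun x => f x ^ 2 := by
    rw [Ent, i1, i2, i3]
    have a1 := Real.exp_one_lt_d9
    have a2 := Real.exp_one_gt_d9
    have a3 := Real.exp_neg_one_lt_d9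
    have a4 := Real.exp_neg_one_gt_d9
    have a5 := Real.log_le_sub_one_of_pos
      (show 0 < 2⁻¹ * (Real.exp 1 - Real.exp (-1)) by linarith)
    nlinarith
  have k2 : 5⁻¹ * ENNReal.ofReal 0.7 ≤ C * ENNReal.ofReal 0.7 := by
    refine le_trans ?_ ((ENNReal.ofReal_le_ofReal hE).trans (k.trans (by gcongr)))
    rw [← ENNReal.ofReal_ofNat 5, ← ENNReal.ofReal_inv_of_pos (by norm_num),
      ← ENNReal.ofReal_mul (by norm_num)]
    exact ENNReal.ofReal_le_ofReal (by norm_num)
  exact (ENNReal.mul_le_mul_iff_left (by norm_num) ENNReal.ofReal_ne_top).1 k2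

omit hr h2 in
theorem K_lower (hn : 1 ≤ n) : 20⁻¹ ≤ K n := by
  have hn' : (1 : ℝ) ≤ n := by exact_mod_cast hn
  let j : Fin n := ⟨0, hn⟩
  let r : Fin n → ℝ := fun i => if i = j then 1 else (n : ℝ)⁻¹
  have hr : ∀ i, 0 < r i := fun i => by
    simp only [r]
    split_ifs <;> positivity
  have h2 : ∀ x ∈ Bx r, ‖x‖ ^ 2 ≤ 2 := fun x hx => by
    rw [EuclideanSpace.real_norm_sq_eq]
    have b : ∀ i, x i ^ 2 ≤ (if i = j then 1 else 0) + (n : ℝ)⁻¹ := fun i => by
      have h1 : x i ^ 2 ≤ r i ^ 2 := sq_le_sq' (hx i).1 (hx i).2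
      have h3 : 0 < (n : ℝ)⁻¹ := by positivity
      have h4 : (n : ℝ)⁻¹ ≤ 1 := inv_le_one_of_one_le₀ hn'
      simp only [r] at h1
      split_ifs at h1 ⊢ <;> nlinarith
    refine (Finset.sum_le_sum fun i _ => b i).trans (le_of_eq ?_)
    rw [Finset.sum_add_distrib, Finset.sum_ite_eq', Finset.sum_const, Finset.card_univ,
      Fintype.card_fin, nsmul_eq_mul, mul_inv_cancel₀ (by positivity)]
    simp only [Finset.mem_univ, if_true]
    norm_num
  have hs : sgConst (box r) ≤ 2 := by
    refine iInf_le_of_le 2 (iInf_le_of_le two_pos (iInf_le_of_le (box_sg hr h2) ?_))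
    simp
  have hc : 5⁻¹ ≤ CLS (box r) := le_sInf fun C hC => box_lsi hr h2 j (if_pos rfl) hC
  refine le_iSup_of_le (box r) (le_iSup_of_le (box_adm hr h2)
    (le_iSup_of_le (hs.trans_lt (by norm_num)) ?_))
  refine le_trans (le_of_eq ?_) (ENNReal.div_le_div hc (pow_le_pow_left' hs 2))
  rw [div_eq_mul_inv, ← ENNReal.mul_inv (by norm_num) (by norm_num)]
  norm_num

end

end Vale.Agent.P245W
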