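import Vale.Agent.P245W48.Box
import Vale.Agent.P245.H300.StaticA
import Vale.Agent.P245.H652.Top

/-!
# P245: from the literal notions to the starting files
-/

set_option linter.all false

namespace Vale.Agent.P245W

open MeasureTheory Set
open scoped ENNReal ContDiff

variable {n : ℕ}

theorem borel_density {μ : Measure (Eu n)} (h : Admissible μ) : P245.HasLogConcaveDensity μ := by
  classical
  obtain ⟨ρ, h0, ⟨hS, hc⟩, e⟩ := h.density
  set S := {x | 0 < ρ x} with hSd
  have c : ContinuousOn ρ (interior S) :=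
    (Real.continuous_exp.comp_continuousOn hc.continuousOn_interior).congr fun x hx =>
      (Real.exp_log (show x ∈ S from interior_subset hx)).symm
  have e2 : {x | 0 < (interior S).indicator ρ x} = interior S := by
    ext x
    by_cases k : x ∈ interior S
    · simp only [mem_setOf_eq, indicator_of_mem k, k, iff_true]
      exact (show x ∈ S from interior_subset k)
    · simp only [mem_setOf_eq, indicator_of_notMem k, k, lt_irrefl]
  refine ⟨(interior S).indicator ρ, ?_, indicator_nonneg fun x _ => h0 x, ?_, ?_⟩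
  · exact c.measurable_piecewise continuousOn_const isOpen_interior.measurableSet
  · rw [e2]
    exact (hc.subset interior_subset hS.interior).congr fun x hx => by
      simp only [indicator_of_mem hx]
  · rw [e]
    refine withDensity_congr_ae ?_
    filter_upwards [measure_eq_zero_iff_ae_notMem.1 (hS.addHaar_frontier volume)] with x hx
    by_cases k : x ∈ interior S
    · rw [indicator_of_mem k]
    · rw [indicator_of_notMem k]
      have : x ∉ S := fun k' => hx ⟨subset_closure k', k⟩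
      rw [le_antisymm (not_lt.1 this) (h0 x)]

theorem integrable_three (μ : Measure (Eu n)) [IsProbabilityMeasure μ] {f : Eu n → ℝ}
    (hf : ContDiff ℝ ∞ f) (hs : HasCompactSupport f) :
    Integrable (fun x => f x ^ 2) μ ∧ Integrable (fun x => f x ^ 2 * Real.log (f x ^ 2)) μ ∧
      Integrable (fun x => ‖gradient f x‖ ^ 2) μ := by
  have c : Continuous fun x => f x ^ 2 := hf.continuous.pow 2
  have s1 : HasCompactSupport fun x => f x ^ 2 :=
    hs.mono fun x hx h => hx (by simp only [h]; norm_num)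
  have c2 : Continuous fun x => f x ^ 2 * Real.log (f x ^ 2) := Real.continuous_mul_log.comp c
  have s2 : HasCompactSupport fun x => f x ^ 2 * Real.log (f x ^ 2) :=
    hs.mono fun x hx h => hx (by simp only [h]; norm_num)
  refine ⟨c.integrable_of_hasCompactSupport s1, c2.integrable_of_hasCompactSupport s2, ?_⟩
  have e : (fun x => ‖gradient f x‖ ^ 2) = fun x => ‖fderiv ℝ f x‖ ^ 2 := by
    ext x
    rw [gradient, LinearIsometryEquiv.norm_map]
  rw [e]
  have c3 : Continuous fun x => ‖fderiv ℝ f x‖ ^ 2 := (hf.continuous_fderiv (by simp)).norm.pow 2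
  have s3 : HasCompactSupport fun x => ‖fderiv ℝ f x‖ ^ 2 :=
    (hs.fderiv ℝ).mono fun x hx h => hx (by simp only [h, norm_zero]; norm_num)
  exact c3.integrable_of_hasCompactSupport s3

theorem lint_eq {μ : Measure (Eu n)} {f : Eu n → ℝ}
    (h : Integrable (fun x => ‖gradient f x‖ ^ 2) μ) :
    ∫⁻ x, ‖gradient f x‖ₑ ^ 2 ∂μ = ENNReal.ofReal (∫ x, ‖gradient f x‖ ^ 2 ∂μ) := by
  rw [ofReal_integral_eq_lintegral_ofReal h (Filter.Eventually.of_forall fun x => sq_nonneg _)]
  refine lintegral_congr fun x => ?_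
  rw [← ofReal_norm_eq_enorm, ENNReal.ofReal_pow (norm_nonneg _)]

theorem isLeast_CLS (μ : Measure (Eu n)) [IsProbabilityMeasure μ] {C : ℝ≥0∞} (hC : LSI μ C) :
    IsLeast {C' | LSI μ C'} (CLS μ) := by
  refine ⟨fun f hf hs => ?_, fun C' h => sInf_le h⟩
  have ht : ∫⁻ x, ‖gradient f x‖ₑ ^ 2 ∂μ ≠ ⊤ := by
    rw [lint_eq (integrable_three μ hf hs).2.2]
    exact ENNReal.ofReal_ne_top
  by_cases h0 : ∫⁻ x, ‖gradient f x‖ₑ ^ 2 ∂μ = 0
  · have := hC f hf hs
    rw [h0, mul_zero] at this ⊢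
    exact this
  · rw [← ENNReal.div_le_iff h0 ht]
    exact le_sInf fun C' h => (ENNReal.div_le_iff h0 ht).2 (h f hf hs)

theorem main : ∃ C : ℝ, 0 < C ∧ ∀ n : ℕ, 1 ≤ n →
    (∀ μ : Measure (Eu n), Admissible μ → ∀ a : ℝ, 0 < a → Subgaussian μ a →
      (∀ f : Eu n → ℝ, ContDiff ℝ ∞ f → HasCompactSupport f →
        Integrable (fun x => f x ^ 2) μ ∧ Integrable (fun x => f x ^ 2 * Real.log (f x ^ 2)) μ ∧
        Integrable (fun x => ‖gradient f x‖ ^ 2) μ ∧
        Ent μ (fun x => f x ^ 2) ≤ C * a ^ 2 * ∫ x, ‖gradient f x‖ ^ 2 ∂μ) ∧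
      IsLeast {C' | LSI μ C'} (CLS μ)) ∧
    20⁻¹ ≤ K n ∧ K n ≤ ENNReal.ofReal C := by
  obtain ⟨C, hC, h⟩ := P245.H652.literal_of_Core P245.H300.core
  refine ⟨C, hC, fun n hn => ?_⟩
  have k : ∀ μ : Measure (Eu n), Admissible μ → ∀ a : ℝ, 0 < a → Subgaussian μ a →
      ∀ f : Eu n → ℝ, ContDiff ℝ ∞ f → HasCompactSupport f →
        Ent μ (fun x => f x ^ 2) ≤ C * a ^ 2 * ∫ x, ‖gradient f x‖ ^ 2 ∂μ := fun μ hμ a ha hs =>
    have := hμ.prob
    h n hn μ (borel_density hμ) a ha fun θ hθ =>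
      (le_iSup_of_le (⟨θ, mem_sphere_zero_iff_norm.2 hθ⟩ : Metric.sphere (0 : Eu n) 1) le_rfl).trans
        hs
  have l : ∀ μ : Measure (Eu n), Admissible μ → ∀ a : ℝ, 0 < a → Subgaussian μ a →
      LSI μ (ENNReal.ofReal C * ENNReal.ofReal a ^ 2) := fun μ hμ a ha hs f hf hc => by
    have := hμ.prob
    rw [lint_eq (integrable_three μ hf hc).2.2, ← ENNReal.ofReal_pow ha.le,
      ← ENNReal.ofReal_mul hC.le, ← ENNReal.ofReal_mul (by positivity)]
    exact ENNReal.ofReal_le_ofReal (k μ hμ a ha hs f hf hc)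
  refine ⟨fun μ hμ a ha hs => ?_, K_lower hn,
    iSup_le fun μ => iSup_le fun hμ => iSup_le fun _ => ENNReal.div_le_of_le_mul ?_⟩
  · have := hμ.prob
    refine ⟨fun f hf hc => ?_, isLeast_CLS μ (l μ hμ a ha hs)⟩
    obtain ⟨h1, h2, h3⟩ := integrable_three μ hf hc
    exact ⟨h1, h2, h3, k μ hμ a ha hs f hf hc⟩
  · have c0 : ENNReal.ofReal C ≠ 0 := by simpa using hC
    have e : ((CLS μ / ENNReal.ofReal C) ^ (2⁻¹ : ℝ)) ^ 2 = CLS μ / ENNReal.ofReal C := by
      rw [← ENNReal.rpow_natCast, ← ENNReal.rpow_mul]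
      norm_num
    have t : (CLS μ / ENNReal.ofReal C) ^ (2⁻¹ : ℝ) ≤ sgConst μ :=
      le_iInf fun a => le_iInf fun ha => le_iInf fun hs => by
        rw [← ENNReal.pow_le_pow_left_iff two_ne_zero, e]
        exact ENNReal.div_le_of_le_mul' (sInf_le (l μ hμ a ha hs))
    rw [mul_comm, ← ENNReal.div_le_iff c0 ENNReal.ofReal_ne_top, ← e]
    exact pow_le_pow_left' t 2

end Vale.Agent.P245W
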