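import Mathlib

/-!
# P245: the notions of the problem, word for word
-/

namespace Vale.Agent.P245W

open MeasureTheory
open scoped ENNReal ContDiff

noncomputable section

/-- Euclidean space `ℝⁿ`. -/
abbrev Eu (n : ℕ) := EuclideanSpace ℝ (Fin n)

variable {n : ℕ}

/-- The entropy `Ent_μ(g) = ∫ g log g dμ - (∫ g dμ) log (∫ g dμ)`, with `0 log 0 = 0`. -/
def Ent (μ : Measure (Eu n)) (g : Eu n → ℝ) : ℝ :=
  ∫ x, g x * Real.log (g x) ∂μ - (∫ x, g x ∂μ) * Real.log (∫ x, g x ∂μ)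

/-- `ρ` is log-concave: the set where `ρ` is positive is convex and `log ρ` is concave there. -/
def LogConcave (ρ : Eu n → ℝ) : Prop :=
  Convex ℝ {x | 0 < ρ x} ∧ ConcaveOn ℝ {x | 0 < ρ x} fun x => Real.log (ρ x)

/-- `μ` is a centered probability measure with a log-concave Lebesgue density. -/
structure Admissible (μ : Measure (Eu n)) : Prop where
  prob : IsProbabilityMeasure μ
  density : ∃ ρ : Eu n → ℝ, (∀ x, 0 ≤ ρ x) ∧ LogConcave ρ ∧
    μ = volume.withDensity fun x => ENNReal.ofReal (ρ x)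
  integrable : Integrable id μ
  centered : ∫ x, x ∂μ = 0

/-- The logarithmic Sobolev inequality with constant `C` in `[0, ∞]`:
`Ent_μ(f²) ≤ C ∫ |Df|² dμ` for all smooth `f` with compact support. -/
def LSI (μ : Measure (Eu n)) (C : ℝ≥0∞) : Prop :=
  ∀ f : Eu n → ℝ, ContDiff ℝ ∞ f → HasCompactSupport f →
    ENNReal.ofReal (Ent μ fun x => f x ^ 2) ≤ C * ∫⁻ x, ‖gradient f x‖ₑ ^ 2 ∂μ

/-- The log-Sobolev constant `C_LS(μ)`. -/
def CLS (μ : Measure (Eu n)) : ℝ≥0∞ := sInf {C | LSI μ C}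

/-- `μ` is linearly `a`-subgaussian: the supremum over the unit vectors `θ` of
`E exp(⟨X, θ⟩² / a²)` is at most `2`. -/
def Subgaussian (μ : Measure (Eu n)) (a : ℝ) : Prop :=
  ⨆ θ : Metric.sphere (0 : Eu n) 1,
    ∫⁻ x, ENNReal.ofReal (Real.exp (inner ℝ x θ.1 ^ 2 / a ^ 2)) ∂μ ≤ 2

/-- `a(μ)`, the infimum of the `a > 0` for which `μ` is linearly `a`-subgaussian. -/
def sgConst (μ : Measure (Eu n)) : ℝ≥0∞ :=
  ⨅ (a : ℝ) (_ : 0 < a) (_ : Subgaussian μ a), ENNReal.ofReal a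

/-- `K_n`, the supremum of `C_LS(μ) / a(μ)²` over all admissible `μ` with `a(μ) < ∞`. -/
def K (n : ℕ) : ℝ≥0∞ :=
  ⨆ (μ : Measure (Eu n)) (_ : Admissible μ) (_ : sgConst μ < ⊤), CLS μ / sgConst μ ^ 2

end

end Vale.Agent.P245W
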